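import Mathlib

/-!
# Row 286, abstract block ABS (no model, Mathlib only), file 2: THE SCALAR PARTS OF THE PROJECTION LEMMA      (helper53; prefix `sk_ab_`)

PE Lemma 3.5 (13) = LL (A3).
`sk_ab_odd`     : `(α^(2k+1) - β^(2k+1)) (α - β) ≥ 4⁻ᵏ (α - β)^(2k+2)`      (uniform monotonicity of the odd power `p - 1`, `p = 2k + 2`, `c_p = 2^(2-p)`)
`sk_ab_rec`     : `a_(i+1)^p ≤ κ a_i^(p-1)`  ⟹  `a_N ≤ κ (a_0/κ)^((1-1/p)^N)`
`sk_ab_rec_fin` : with `a_0 ≤ κ n^E` and `N ≥ log² n` : `a_N ≤ 2 κ` for `n ≥ n0(p, E)`      (only an UPPER bound on the ratio is needed)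
`sk_ab_sg_mom`  : sub-Gaussian Laplace transform ⟹ even moments, `∫ X^(2k) ≤ 4 (2k)! σ^(2k)`
-/

set_option autoImplicit false

namespace Claimed.Agent.R286

open MeasureTheory

/-- sign of `x^q + y^q`, `q` odd -/
theorem sk_ab_odd_sum (k : ℕ) (x y : ℝ) : 0 ≤ (x + y) * (x ^ (2 * k + 1) + y ^ (2 * k + 1)) := by
  have ho : Odd (2 * k + 1) := ⟨k, rfl⟩
  have hm := ho.strictMono_pow (R := ℝ)
  rcases le_total 0 (x + y) with h | h
  · refine mul_nonneg h ?_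
    have : (-y) ^ (2 * k + 1) ≤ x ^ (2 * k + 1) := hm.monotone (by linarith)
    rw [ho.neg_pow] at this
    linarith
  · refine mul_nonneg_of_nonpos_of_nonpos h ?_
    have : x ^ (2 * k + 1) ≤ (-y) ^ (2 * k + 1) := hm.monotone (by linarith)
    rw [ho.neg_pow] at this
    linarith

/-- centred form -/
theorem sk_ab_odd_aux (k : ℕ) (m d : ℝ) : 2 * d ^ (2 * k + 2) ≤ ((m + d) ^ (2 * k + 1) - (m - d) ^ (2 * k + 1)) * d := by
  induction k with
  | zero => simp; nlinarith [sq_nonneg d]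
  | succ k ih =>
    have hs := sk_ab_odd_sum k (m + d) (m - d)
    have hd : 0 ≤ d ^ (2 * k + 2) := by
      have : d ^ (2 * k + 2) = (d ^ (k + 1)) ^ 2 := by ring
      rw [this]; positivity
    have e : ((m + d) ^ (2 * (k + 1) + 1) - (m - d) ^ (2 * (k + 1) + 1)) * d
        = (m ^ 2 + d ^ 2) * (((m + d) ^ (2 * k + 1) - (m - d) ^ (2 * k + 1)) * d)
          + d ^ 2 * ((m + d + (m - d)) * ((m + d) ^ (2 * k + 1) + (m - d) ^ (2 * k + 1))) := by ring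
    rw [e]
    have e2 : 2 * d ^ (2 * (k + 1) + 2) = d ^ 2 * (2 * d ^ (2 * k + 2)) := by ring
    rw [e2]
    have h1 : d ^ 2 * (2 * d ^ (2 * k + 2)) ≤ (m ^ 2 + d ^ 2) * (2 * d ^ (2 * k + 2)) :=
      mul_le_mul_of_nonneg_right (by nlinarith [sq_nonneg m]) (by positivity)
    have h2 : (m ^ 2 + d ^ 2) * (2 * d ^ (2 * k + 2)) ≤ (m ^ 2 + d ^ 2) * (((m + d) ^ (2 * k + 1) - (m - d) ^ (2 * k + 1)) * d) :=
      mul_le_mul_of_nonneg_left ih (by positivity)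
    have h3 : 0 ≤ d ^ 2 * ((m + d + (m - d)) * ((m + d) ^ (2 * k + 1) + (m - d) ^ (2 * k + 1))) := mul_nonneg (sq_nonneg d) hs
    linarith

/-- **uniform monotonicity of odd powers** -/
theorem sk_ab_odd (k : ℕ) (α β : ℝ) : (α - β) ^ (2 * k + 2) / 4 ^ k ≤ (α ^ (2 * k + 1) - β ^ (2 * k + 1)) * (α - β) := by
  have h := sk_ab_odd_aux k ((α + β) / 2) ((α - β) / 2)
  have e1 : (α + β) / 2 + (α - β) / 2 = α := by ring
  have e2 : (α + β) / 2 - (α - β) / 2 = β := by ring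
  rw [e1, e2] at h
  have e3 : ((α - β) / 2) ^ (2 * k + 2) = (α - β) ^ (2 * k + 2) / (4 * 4 ^ k) := by
    rw [div_pow]
    congr 1
    rw [pow_add, pow_mul]
    norm_num
    ring
  rw [e3] at h
  have h4 : (0 : ℝ) < 4 ^ k := by positivity
  rw [div_le_iff₀ h4]
  have : 2 * ((α - β) ^ (2 * k + 2) / (4 * 4 ^ k)) = (α - β) ^ (2 * k + 2) / (2 * 4 ^ k) := by
    field_simp
    ring
  rw [this, div_le_iff₀ (by positivity)] at h
  nlinarith

/-- **the recursion** -/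
theorem sk_ab_rec (p : ℝ) (hp : 1 < p) (a : ℕ → ℝ) (κ : ℝ) (hκ : 0 < κ) (N : ℕ) (ha : ∀ i, 0 ≤ a i)
    (hrec : ∀ i < N, a (i + 1) ^ p ≤ κ * a i ^ (p - 1)) : a N ≤ κ * (a 0 / κ) ^ ((1 - 1 / p) ^ N) := by
  have hp0 : 0 < p := by linarith
  have hθ : 0 ≤ 1 - 1 / p := by
    rw [sub_nonneg, div_le_one hp0]; exact hp.le
  induction N with
  | zero => simp; rw [mul_div_cancel₀ _ hκ.ne']
  | succ N ih =>
    have I := ih fun i hi => hrec i (Nat.lt_succ_of_lt hi)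
    have R := hrec N (Nat.lt_succ_self N)
    have hr0 : 0 ≤ a 0 / κ := div_nonneg (ha 0) hκ.le
    -- normalised
    have h1 : a N / κ ≤ (a 0 / κ) ^ ((1 - 1 / p) ^ N) := by rw [div_le_iff₀ hκ]; linarith
    have h2 : (a (N + 1) / κ) ^ p ≤ (a N / κ) ^ (p - 1) := by
      rw [Real.div_rpow (ha _) hκ.le, Real.div_rpow (ha _) hκ.le, div_le_div_iff₀ (Real.rpow_pos_of_pos hκ _) (Real.rpow_pos_of_pos hκ _)]
      have e : κ ^ p = κ * κ ^ (p - 1) := by
        rw [← Real.rpow_one_add' hκ.le (by linarith)]; congr 1; ring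
      rw [e]
      have := mul_le_mul_of_nonneg_right R (Real.rpow_nonneg hκ.le (p - 1))
      nlinarith
    have h3 : a (N + 1) / κ ≤ (a N / κ) ^ (1 - 1 / p) := by
      have := Real.rpow_le_rpow (Real.rpow_nonneg (div_nonneg (ha _) hκ.le) _) h2 (show 0 ≤ 1 / p by positivity)
      rw [← Real.rpow_mul (div_nonneg (ha _) hκ.le), ← Real.rpow_mul (div_nonneg (ha _) hκ.le)] at this
      have e1 : p * (1 / p) = 1 := by field_simp
      have e2 : (p - 1) * (1 / p) = 1 - 1 / p := by field_simp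
      rwa [e1, e2, Real.rpow_one] at this
    have h4 : (a N / κ) ^ (1 - 1 / p) ≤ ((a 0 / κ) ^ ((1 - 1 / p) ^ N)) ^ (1 - 1 / p) :=
      Real.rpow_le_rpow (div_nonneg (ha _) hκ.le) h1 hθ
    rw [← Real.rpow_mul hr0, ← pow_succ] at h4
    have := h3.trans h4
    rw [div_le_iff₀ hκ] at this
    linarith

/-- `E x e^(-x²/p) ≤ log 2` for large `x` -/
theorem sk_ab_small (p : ℝ) (hp : 0 < p) (E : ℝ) : ∃ x0 : ℝ, ∀ x : ℝ, x0 ≤ x → E * x * Real.exp (-(x ^ 2 / p)) ≤ Real.log 2 := by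
  have hl : 0 < Real.log 2 := Real.log_pos one_lt_two
  refine ⟨max 1 (|E| * p / Real.log 2), fun x hx => ?_⟩
  have hx1 : 1 ≤ x := (le_max_left _ _).trans hx
  have hx2 : |E| * p / Real.log 2 ≤ x := (le_max_right _ _).trans hx
  have hx0 : 0 < x := by linarith
  have hy : 0 < x ^ 2 / p := by positivity
  have h1 : Real.exp (-(x ^ 2 / p)) ≤ p / x ^ 2 := by
    rw [Real.exp_neg, inv_le_comm₀ (Real.exp_pos _) (by positivity), inv_div]
    linarith [Real.add_one_le_exp (x ^ 2 / p)]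
  calc E * x * Real.exp (-(x ^ 2 / p)) ≤ |E| * x * Real.exp (-(x ^ 2 / p)) := by
        refine mul_le_mul_of_nonneg_right (mul_le_mul_of_nonneg_right (le_abs_self E) hx0.le) (Real.exp_pos _).le
    _ ≤ |E| * x * (p / x ^ 2) := mul_le_mul_of_nonneg_left h1 (by positivity)
    _ = |E| * p / x := by field_simp
    _ ≤ Real.log 2 := by
      rw [div_le_iff₀ hx0]
      rw [div_le_iff₀ hl] at hx2
      linarith

/-- **the recursion after `log² n` steps** -/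
theorem sk_ab_rec_fin (p : ℝ) (hp : 1 < p) (E : ℝ) : ∃ n0 : ℕ, ∀ n : ℕ, n0 ≤ n → ∀ (a : ℕ → ℝ) (κ : ℝ) (N : ℕ), 0 < κ → (∀ i, 0 ≤ a i) →
    (∀ i < N, a (i + 1) ^ p ≤ κ * a i ^ (p - 1)) → a 0 ≤ κ * (n : ℝ) ^ E → Real.log n ^ 2 ≤ N → a N ≤ 2 * κ := by
  have hp0 : 0 < p := by linarith
  obtain ⟨x0, hx0⟩ := sk_ab_small p hp0 E
  obtain ⟨n0, hn0⟩ := exists_nat_ge (Real.exp (max x0 0))
  refine ⟨max n0 1, fun n hn a κ N hκ ha hrec h0 hN => ?_⟩
  have hn1 : 1 ≤ n := (le_max_right _ _).trans hn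
  have hnpos : (0 : ℝ) < n := by exact_mod_cast hn1
  have hnx : max x0 0 ≤ Real.log n := by
    rw [Real.le_log_iff_exp_le hnpos]
    exact hn0.trans (by exact_mod_cast (le_max_left _ _).trans hn)
  have hx : x0 ≤ Real.log n := (le_max_left _ _).trans hnx
  have hl0 : 0 ≤ Real.log n := (le_max_right _ _).trans hnx
  have R := sk_ab_rec p hp a κ hκ N ha hrec
  have hθ0 : 0 ≤ 1 - 1 / p := by rw [sub_nonneg, div_le_one hp0]; exact hp.le
  have hθN : (1 - 1 / p) ^ N ≤ Real.exp (-(Real.log n ^ 2 / p)) := by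
    have h1 : 1 - 1 / p ≤ Real.exp (-(1 / p)) := by linarith [Real.add_one_le_exp (-(1 / p))]
    calc (1 - 1 / p) ^ N ≤ Real.exp (-(1 / p)) ^ N := pow_le_pow_left₀ hθ0 h1 N
      _ = Real.exp (-(N / p)) := by rw [← Real.exp_nat_mul]; congr 1; ring
      _ ≤ Real.exp (-(Real.log n ^ 2 / p)) := by
        refine Real.exp_le_exp.2 (neg_le_neg ?_)
        exact div_le_div_of_nonneg_right hN hp0.le
  have hθN0 : 0 ≤ (1 - 1 / p) ^ N := pow_nonneg hθ0 N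
  have hr : a 0 / κ ≤ (n : ℝ) ^ E := by rw [div_le_iff₀ hκ]; linarith
  have key : (a 0 / κ) ^ ((1 - 1 / p) ^ N) ≤ 2 := by
    calc (a 0 / κ) ^ ((1 - 1 / p) ^ N) ≤ ((n : ℝ) ^ E) ^ ((1 - 1 / p) ^ N) := Real.rpow_le_rpow (div_nonneg (ha 0) hκ.le) hr hθN0
      _ = Real.exp (E * Real.log n * (1 - 1 / p) ^ N) := by
        rw [← Real.rpow_mul hnpos.le, Real.rpow_def_of_pos hnpos]; congr 1; ring
      _ ≤ 2 := by
        rw [← Real.le_log_iff_exp_le two_pos]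
        rcases le_total 0 E with hE | hE
        · exact (mul_le_mul_of_nonneg_left hθN (mul_nonneg hE hl0)).trans (hx0 _ hx)
        · exact (mul_nonpos_of_nonpos_of_nonneg (mul_nonpos_of_nonpos_of_nonneg hE hl0) hθN0).trans (Real.log_pos one_lt_two).le
  calc a N ≤ κ * (a 0 / κ) ^ ((1 - 1 / p) ^ N) := R
    _ ≤ κ * 2 := mul_le_mul_of_nonneg_left key hκ.le
    _ = 2 * κ := by ring

/-- **sub-Gaussian Laplace transform ⟹ even moments** -/
theorem sk_ab_sg_mom {Ω : Type*} [MeasurableSpace Ω] (μ : Measure Ω) (X : Ω → ℝ) (σ : ℝ) (hσ : 0 < σ)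
    (hint : ∀ θ : ℝ, Integrable (fun ω => Real.exp (θ * X ω)) μ)
    (hmgf : ∀ θ : ℝ, ∫ ω, Real.exp (θ * X ω) ∂μ ≤ Real.exp (θ ^ 2 * σ ^ 2 / 2)) (k : ℕ) :
    Integrable (fun ω => X ω ^ (2 * k)) μ ∧ ∫ ω, X ω ^ (2 * k) ∂μ ≤ 4 * (2 * k).factorial * σ ^ (2 * k) := by
  -- pointwise: `x^(2k) / (2k)! ≤ e^x + e^(-x)`
  have hpt : ∀ x : ℝ, x ^ (2 * k) / (2 * k).factorial ≤ Real.exp x + Real.exp (-x) := by
    intro x
    have he : x ^ (2 * k) = |x| ^ (2 * k) := by rw [pow_mul, pow_mul, sq_abs]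
    have h1 : |x| ^ (2 * k) / (2 * k).factorial ≤ Real.exp |x| := Real.pow_div_factorial_le_exp _ (abs_nonneg x) _
    have h2 : Real.exp |x| ≤ Real.exp x + Real.exp (-x) := by
      rcases abs_cases x with ⟨h, -⟩ | ⟨h, -⟩ <;> rw [h] <;> linarith [Real.exp_pos x, Real.exp_pos (-x)]
    rw [he]; exact h1.trans h2
  have hf : (0 : ℝ) < (2 * k).factorial := by positivity
  have hσk : 0 < σ ^ (2 * k) := by positivity
  have hdom : ∀ ω, X ω ^ (2 * k) ≤ (2 * k).factorial * σ ^ (2 * k) * (Real.exp (σ⁻¹ * X ω) + Real.exp (-σ⁻¹ * X ω)) := by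
    intro ω
    have := hpt (σ⁻¹ * X ω)
    rw [div_le_iff₀ hf, mul_pow, inv_pow] at this
    have e : X ω ^ (2 * k) = σ ^ (2 * k) * ((σ ^ (2 * k))⁻¹ * X ω ^ (2 * k)) := by field_simp
    rw [e]
    have := mul_le_mul_of_nonneg_left this hσk.le
    rw [neg_mul]
    nlinarith
  have hmeas : AEStronglyMeasurable X μ := by
    have h1 := (hint 1).aestronglyMeasurable.aemeasurable
    have : AEMeasurable (fun ω => Real.log (Real.exp (1 * X ω))) μ := Real.measurable_log.comp_aemeasurable h1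
    simp only [one_mul, Real.log_exp] at this
    exact this.aestronglyMeasurable
  have hI : Integrable (fun ω => (2 * k).factorial * σ ^ (2 * k) * (Real.exp (σ⁻¹ * X ω) + Real.exp (-σ⁻¹ * X ω))) μ :=
    ((hint _).add (hint _)).const_mul _
  have h0 : ∀ ω, 0 ≤ X ω ^ (2 * k) := fun ω => by rw [pow_mul]; positivity
  have hXi : Integrable (fun ω => X ω ^ (2 * k)) μ :=
    hI.mono' (hmeas.pow _) (Filter.Eventually.of_forall fun ω => by rw [Real.norm_of_nonneg (h0 ω)]; exact hdom ω)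
  refine ⟨hXi, ?_⟩
  have hle := integral_mono hXi hI hdom
  rw [integral_const_mul, integral_add (hint _) (hint _)] at hle
  have m1 := hmgf σ⁻¹
  have m2 := hmgf (-σ⁻¹)
  have e1 : σ⁻¹ ^ 2 * σ ^ 2 / 2 = 1 / 2 := by field_simp
  have e2 : (-σ⁻¹) ^ 2 * σ ^ 2 / 2 = 1 / 2 := by field_simp
  rw [e1] at m1
  rw [e2] at m2
  have h2 : Real.exp (1 / 2) ≤ 2 := by
    rw [← Real.le_log_iff_exp_le two_pos]
    linarith [Real.log_two_gt_d9]
  have hc : (0 : ℝ) ≤ (2 * k).factorial * σ ^ (2 * k) := by positivity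
  calc ∫ ω, X ω ^ (2 * k) ∂μ ≤ (2 * k).factorial * σ ^ (2 * k) * (∫ ω, Real.exp (σ⁻¹ * X ω) ∂μ + ∫ ω, Real.exp (-σ⁻¹ * X ω) ∂μ) := hle
    _ ≤ (2 * k).factorial * σ ^ (2 * k) * (2 + 2) := mul_le_mul_of_nonneg_left (by linarith) hc
    _ = 4 * (2 * k).factorial * σ ^ (2 * k) := by ring

end Claimed.Agent.R286
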